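import Vale.Agent.Lib.P348.helper23.Defs
import Vale.Agent.Lib.P361.Model

/-!
Auxiliary definitions for the upper bound on the finite-size gaps of the spin-one ring.
-/

namespace Vale.Agent.Lib.P348

open Matrix

open Vale.Agent.Lib.P361

/-- The squared norm of a vector. -/
noncomputable def nsq {n : Type*} [Fintype n] (ψ : n → ℂ) : ℝ := ∑ σ, ‖ψ σ‖ ^ 2

/-- The inner product of two vectors, conjugate linear in the first. -/
def ip {n : Type*} [Fintype n] (φ ψ : n → ℂ) : ℂ := ∑ σ, star (φ σ) * ψ σ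

/-- The weight of the configurations whose spin at the site `j` is not the top one. -/
noncomputable def uw {L : ℕ} (j : Fin L) (ψ : (Fin L → Fin 3) → ℂ) : ℝ :=
  ∑ σ : Fin L → Fin 3, if σ j = 0 then 0 else ‖ψ σ‖ ^ 2

/-- The total third component of the spin. -/
noncomputable def totZ (L : ℕ) : Matrix (Fin L → Fin 3) (Fin L → Fin 3) ℂ :=
  ∑ j : Fin L, siteOp j (spinZ 3)

/-- The raising operator at the site `j`. -/
noncomputable def raise {L : ℕ} (j : Fin L) : Matrix (Fin L → Fin 3) (Fin L → Fin 3) ℂ :=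
  siteOp j (spinPlus 3)

theorem nsq_def {n : Type*} [Fintype n] (ψ : n → ℂ) : nsq ψ = ∑ σ, ‖ψ σ‖ ^ 2 := by
  rw [nsq]

theorem ip_def {n : Type*} [Fintype n] (φ ψ : n → ℂ) : ip φ ψ = ∑ σ, star (φ σ) * ψ σ := by
  rw [ip]

theorem uw_def {L : ℕ} (j : Fin L) (ψ : (Fin L → Fin 3) → ℂ) :
    uw j ψ = ∑ σ : Fin L → Fin 3, if σ j = 0 then 0 else ‖ψ σ‖ ^ 2 := by
  rw [uw]

theorem totZ_def (L : ℕ) : totZ L = ∑ j : Fin L, siteOp j (spinZ 3) := by
  rw [totZ]

theorem raise_def {L : ℕ} (j : Fin L) : raise j = siteOp j (spinPlus 3) := by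
  rw [raise]

theorem aux_congr_nsq {n : Type*} [Fintype n] (ψ : n → ℂ) (a : ℝ) (ha : a = 0) :
    nsq ψ + a = nsq ψ := by simp [ha]

theorem aux_congr_ip {n : Type*} [Fintype n] (φ ψ : n → ℂ) (a : ℂ) (ha : a = 0) :
    ip φ ψ + a = ip φ ψ := by simp [ha]

theorem aux_congr_uw {L : ℕ} (j : Fin L) (ψ : (Fin L → Fin 3) → ℂ) (a : ℝ) (ha : a = 0) :
    uw j ψ + a = uw j ψ := by simp [ha]

theorem aux_congr_totZ (L : ℕ) (a : Matrix (Fin L → Fin 3) (Fin L → Fin 3) ℂ) (ha : a = 0) :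
    totZ L + a = totZ L := by simp [ha]

theorem aux_congr_raise {L : ℕ} (j : Fin L) (a : Matrix (Fin L → Fin 3) (Fin L → Fin 3) ℂ)
    (ha : a = 0) : raise j + a = raise j := by simp [ha]

end Vale.Agent.Lib.P348
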