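import Vale.Agent.Lib.P348.helper23.Herm
import Vale.Agent.Lib.P348.helper44.RingBasics
import Vale.Agent.Lib.P348.helper33.CommBound
import Vale.Agent.Lib.P348.helper58.SiteNorms
import Vale.Agent.Lib.P348.helper99.EnergyLower
import Vale.Agent.Lib.P348.helper91.Neel
import Vale.Agent.Lib.P348.helper22.IpBasics
import Vale.Agent.Lib.P348.helper79.TopSector
import Vale.Agent.Lib.P348.helper72.AboveGround
import Vale.Agent.Lib.P356.helper69.SpecPoly
import Vale.Agent.Lib.P356.helper34.AevalLemmas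

/-!
A uniform upper bound for the finite-size gaps of the spin-one Heisenberg ring: assembly.
-/

namespace Vale.Agent.Lib.P348.H23

open Matrix

open Vale.Agent.Lib.P361 Vale.Agent.Lib.P348

open Vale.Agent.Lib.P348.H33 Vale.Agent.Lib.P348.H58 Vale.Agent.Lib.P348.H91
  Vale.Agent.Lib.P348.H22 Vale.Agent.Lib.P348.H79 Vale.Agent.Lib.P348.H72 Vale.Agent.Lib.P356.H69
  Vale.Agent.Lib.P356.H34

/-- The last arithmetic step. -/
theorem arith_gap (x n r d : ℝ) (hx : 0 < x) (hn : 2 / 3 ≤ n) (h1 : x * n ≤ r)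
    (h2 : r ^ 2 ≤ n * d) (h3 : d ≤ 32) : x ≤ 4 * Real.sqrt 3 := by
  have hs : Real.sqrt 3 ^ 2 = 3 := Real.sq_sqrt (by norm_num)
  have hs0 : 0 ≤ Real.sqrt 3 := Real.sqrt_nonneg 3
  have hn0 : 0 < n := by linarith
  have hxn : 0 ≤ x * n := by positivity
  have h4 : (x * n) ^ 2 ≤ n * 32 := by
    calc (x * n) ^ 2 ≤ r ^ 2 := by
          apply pow_le_pow_left₀ hxn h1
      _ ≤ n * d := h2
      _ ≤ n * 32 := by
          apply mul_le_mul_of_nonneg_left h3 hn0.le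
  have h5 : x ^ 2 * n ≤ 32 := by
    have h6 : (x ^ 2 * n) * n ≤ 32 * n := by
      calc (x ^ 2 * n) * n = (x * n) ^ 2 := by ring
        _ ≤ n * 32 := h4
        _ = 32 * n := by ring
    exact le_of_mul_le_mul_right h6 hn0
  have h7 : x ^ 2 ≤ 48 := by
    have hx2 : 0 ≤ x ^ 2 := by positivity
    nlinarith
  by_contra hcon
  have hlt : 4 * Real.sqrt 3 < x := lt_of_not_ge hcon
  have h8 : (4 * Real.sqrt 3) ^ 2 < x ^ 2 := by
    apply pow_lt_pow_left₀ hlt (by positivity) (by norm_num)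
  have h9 : (4 * Real.sqrt 3) ^ 2 = 48 := by
    rw [mul_pow, hs]
    norm_num
  linarith

/-- The uniform upper bound for the gap of the spin-one Heisenberg ring. -/
theorem gap_le (L : ℕ) (hL : 4 ≤ L) (heven : Even L) :
    ∃ k0 k1 : Fin L → Fin 3,
      (∀ k, (ringH_isHermitian L).eigenvalues k0 ≤ (ringH_isHermitian L).eigenvalues k) ∧
      (ringH_isHermitian L).eigenvalues k0 < (ringH_isHermitian L).eigenvalues k1 ∧
      (∀ k, (ringH_isHermitian L).eigenvalues k0 < (ringH_isHermitian L).eigenvalues k →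
        (ringH_isHermitian L).eigenvalues k1 ≤ (ringH_isHermitian L).eigenvalues k) ∧
      (ringH_isHermitian L).eigenvalues k1 - (ringH_isHermitian L).eigenvalues k0
        ≤ 4 * Real.sqrt 3 := by
  classical
  obtain ⟨hH, hHdef⟩ : ∃ hH : (ringH L).IsHermitian, hH = ringH_isHermitian L := ⟨_, rfl⟩
  rw [← hHdef]
  have hLpos : 0 < L := by omega
  have hne : Nonempty (Fin L) := ⟨⟨0, hLpos⟩⟩
  obtain ⟨k0, hk0⟩ : ∃ k0, ∀ k, hH.eigenvalues k0 ≤ hH.eigenvalues k :=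
    Finite.exists_min hH.eigenvalues
  obtain ⟨σ, hσ⟩ := neel_diag L heven (by omega)
  have hE0 : hH.eigenvalues k0 ≤ -(L : ℝ) := by
    have h1 := min_eig_le_diag (ringH L) hH k0 hk0 σ
    rw [hσ] at h1
    simpa using h1
  obtain ⟨Ω, m, hΩ1, hΩH, hΩN, hmax⟩ :=
    exists_top (ringH L) (totZ L) hH (Vale.Agent.Lib.P348.H44.totZ_isHermitian L)
      (Vale.Agent.Lib.P348.H44.ringH_mul_totZ L) k0
  have hen := Vale.Agent.Lib.P348.H99.energy_lower_of (fun j ψ => nsq_raise j ψ)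
    (show 2 ≤ L by omega) Ω
  have hipΩ : (ip Ω (ringH L *ᵥ Ω)).re = hH.eigenvalues k0 := by
    rw [hΩH, ip_smul_right, ip_self, hΩ1]
    simp
  have hsum : (L : ℝ) / 3 ≤ ∑ j : Fin L, uw j Ω := by
    rw [hΩ1, hipΩ] at hen
    linarith
  obtain ⟨j, hj⟩ : ∃ j : Fin L, (1 : ℝ) / 3 ≤ uw j Ω := by
    by_contra hno
    have hlt : ∑ j : Fin L, uw j Ω < ∑ _j : Fin L, (1 : ℝ) / 3 := by
      apply Finset.sum_lt_sum_of_nonempty Finset.univ_nonempty
      intro j _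
      by_contra hj
      exact hno ⟨j, le_of_not_gt hj⟩
    rw [Finset.sum_const, Finset.card_univ, Fintype.card_fin, nsmul_eq_mul] at hlt
    linarith
  obtain ⟨ψ, hψdef⟩ : ∃ ψ, ψ = raise j *ᵥ Ω := ⟨_, rfl⟩
  have hψn : nsq ψ = 2 * uw j Ω := by
    rw [hψdef]
    exact nsq_raise j Ω
  have hψ23 : (2 : ℝ) / 3 ≤ nsq ψ := by linarith
  have hψ0 : ψ ≠ 0 := by
    intro h
    rw [h, nsq_def] at hψ23
    simp at hψ23
    linarith
  have hNψ : totZ L *ᵥ ψ = ((m + 1 : ℝ) : ℂ) • ψ := by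
    rw [hψdef, Matrix.mulVec_mulVec, Vale.Agent.Lib.P348.H44.totZ_mul_raise, Matrix.add_mulVec, ← Matrix.mulVec_mulVec,
      hΩN, Matrix.mulVec_smul]
    push_cast
    rw [add_smul, one_smul]
  obtain ⟨p, hp1, hp2⟩ := exists_spectral_poly (ringH L) hH (hH.eigenvalues k0 : ℂ)
  have hPψ : Polynomial.aeval (ringH L) p *ᵥ ψ = 0 := by
    by_contra hne0
    have h1 : ringH L *ᵥ (Polynomial.aeval (ringH L) p *ᵥ ψ)
        = (hH.eigenvalues k0 : ℂ) • (Polynomial.aeval (ringH L) p *ᵥ ψ) := by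
      rw [Matrix.mulVec_mulVec, hp2, Matrix.smul_mulVec]
    have hPN : Polynomial.aeval (ringH L) p * totZ L = totZ L * Polynomial.aeval (ringH L) p := by
      have h3 := aeval_comm (ringH L) (totZ L) (Vale.Agent.Lib.P348.H44.ringH_mul_totZ L) p
        Polynomial.X
      rwa [Polynomial.aeval_X] at h3
    have h2 : totZ L *ᵥ (Polynomial.aeval (ringH L) p *ᵥ ψ)
        = ((m + 1 : ℝ) : ℂ) • (Polynomial.aeval (ringH L) p *ᵥ ψ) := by
      rw [Matrix.mulVec_mulVec, ← hPN, ← Matrix.mulVec_mulVec, hNψ, Matrix.mulVec_smul]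
    have h4 := hmax _ (m + 1) hne0 h1 h2
    linarith
  obtain ⟨k, hk1, hk2⟩ := exists_above (ringH L) hH k0 hk0 p hp1 hp2 ψ hψ0 hPψ
  have hD : (ringH L * raise j - raise j * ringH L) *ᵥ Ω
      = ringH L *ᵥ ψ - (hH.eigenvalues k0 : ℂ) • ψ := by
    rw [hψdef, Matrix.sub_mulVec, ← Matrix.mulVec_mulVec, ← Matrix.mulVec_mulVec, hΩH,
      Matrix.mulVec_smul]
  have hDn := nsq_comm_le j Ω
  rw [hΩ1, mul_one] at hDn
  have hre : (ip ψ (ringH L *ᵥ ψ)).re - hH.eigenvalues k0 * nsq ψ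
      = (ip ψ ((ringH L * raise j - raise j * ringH L) *ᵥ Ω)).re := by
    rw [hD, ip_sub_right, ip_smul_right, ip_self]
    simp
  have hcs := ip_re_sq_le ψ ((ringH L * raise j - raise j * ringH L) *ᵥ Ω)
  have hx : (hH.eigenvalues k - hH.eigenvalues k0) * nsq ψ
      ≤ (ip ψ ((ringH L * raise j - raise j * ringH L) *ᵥ Ω)).re := by
    rw [← hre]
    linarith
  have hgap : hH.eigenvalues k - hH.eigenvalues k0 ≤ 4 * Real.sqrt 3 :=
    arith_gap _ _ _ _ (by linarith) hψ23 hx hcs hDn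
  obtain ⟨k1, hk1mem, hk1min⟩ := Finset.exists_min_image
    (Finset.univ.filter (fun k => hH.eigenvalues k0 < hH.eigenvalues k)) hH.eigenvalues
    ⟨k, Finset.mem_filter.mpr ⟨Finset.mem_univ _, hk1⟩⟩
  have hk1lt : hH.eigenvalues k0 < hH.eigenvalues k1 := (Finset.mem_filter.mp hk1mem).2
  refine ⟨k0, k1, hk0, hk1lt, ?_, ?_⟩
  · intro k' hk'
    exact hk1min k' (Finset.mem_filter.mpr ⟨Finset.mem_univ _, hk'⟩)
  · have h5 := hk1min k (Finset.mem_filter.mpr ⟨Finset.mem_univ _, hk1⟩)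
    linarith

end Vale.Agent.Lib.P348.H23
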