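import Vale.Agent.Lib.P361.Defs

/-!
The spin-one Heisenberg Hamiltonian on a periodic ring, in the coordinates of the P361
definitions: the basis of the many-site space is indexed by configurations, a configuration
assigns to each site one of the three basis vectors of the spin-one representation.
-/

namespace Vale.Agent.Lib.P348

open Matrix

open Vale.Agent.Lib.P361

/-- The spin-one antiferromagnetic Heisenberg Hamiltonian on the periodic ring with `L` sites:
the sum over the sites `j` of `S_j · S_(j+1)`, where `j + 1` is taken modulo `L`
(`finRotate L j`), with coupling constant one. -/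
noncomputable def ringH (L : ℕ) : Matrix (Fin L → Fin 3) (Fin L → Fin 3) ℂ :=
  ∑ j : Fin L, spinDot 3 j (finRotate L j)

theorem defs_aux_ringH (L : ℕ) :
    ringH L = ∑ j : Fin L, spinDot 3 j (finRotate L j) := by
  rw [ringH]

theorem defs_aux_congr_ringH (L : ℕ) (a : Matrix (Fin L → Fin 3) (Fin L → Fin 3) ℂ)
    (ha : a = 0) : ringH L + a = ringH L := by simp [ha]

end Vale.Agent.Lib.P348
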