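import Vale.Agent.Lib.P348.helper23.Defs
import Vale.Agent.Lib.P361.Model

/-!
The ring Hamiltonian is Hermitian.
-/

namespace Vale.Agent.Lib.P348

open Matrix

open Vale.Agent.Lib.P361

/-- The exchange term of two sites (equal or not) is Hermitian. -/
theorem spinDot_isHermitian {Λ : Type*} [Fintype Λ] [DecidableEq Λ] (x y : Λ) :
    (spinDot 3 x y).IsHermitian := by
  rw [spinDot_eq_bond]
  by_cases hxy : x = y
  · subst hxy
    have hS : SpinSys (cSp (Λ := Λ) 3) (cSz (Λ := Λ) 3) := spinSys 3
    have h2 : star (1 / 2 : ℂ) = 1 / 2 := by simp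
    unfold Matrix.IsHermitian bond
    rw [conjTranspose_add, conjTranspose_smul, conjTranspose_add, conjTranspose_mul,
      conjTranspose_mul, conjTranspose_mul, conjTranspose_conjTranspose, (hS.zH x).eq, h2]
  · exact (spinSys 3).bond_hermitian hxy

/-- The spin-one Heisenberg Hamiltonian on the ring is Hermitian. -/
theorem ringH_isHermitian (L : ℕ) : (ringH L).IsHermitian := by
  rw [defs_aux_ringH]
  unfold Matrix.IsHermitian
  rw [conjTranspose_sum]
  exact Finset.sum_congr rfl (fun j _ => (spinDot_isHermitian j (finRotate L j)).eq)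

end Vale.Agent.Lib.P348
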